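import Vale.Agent.P196.Full.Gen

/-!
# P196: three-cycles of slots

A slot is a clopen set carried to an offset. Three-cycles of slots, their transport under
permutations which carry slots to slots, and the basic commutator of two of them.
-/

namespace Vale.Agent.P196.Full.Simple

variable {X : Type} [TopologicalSpace X] {n : ℕ} (S : Sys X)

/-- The point of a slot over `y`. -/
def pt (p : Off n) (y : X) : Pt X n := (S.sh p.1 y, p.2)

/-- Two slots over `V` do not meet. -/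
def Apart (V : Set X) (p q : Off n) : Prop := ∀ y ∈ V, ∀ y' ∈ V, pt S p y ≠ pt S q y'

/-- A permutation cycling three slots and fixing everything else. -/
structure IsCyc (V : Set X) (p q r : Off n) (g : Equiv.Perm (Pt X n)) : Prop where
  map_p : ∀ y ∈ V, g (pt S p y) = pt S q y
  map_q : ∀ y ∈ V, g (pt S q y) = pt S r y
  map_r : ∀ y ∈ V, g (pt S r y) = pt S p y
  fix : ∀ z, (∀ y ∈ V, z ≠ pt S p y ∧ z ≠ pt S q y ∧ z ≠ pt S r y) → g z = z

variable {S} {V : Set X} {p q r : Off n} {g h : Equiv.Perm (Pt X n)}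

lemma Apart.symm (hpq : Apart S V p q) : Apart S V q p := fun y hy y' hy' e => hpq y' hy' y hy e.symm

lemma Apart.mono (hpq : Apart S V p q) {U : Set X} (hU : U ⊆ V) : Apart S U p q :=
  fun y hy y' hy' => hpq y (hU hy) y' (hU hy')

lemma apart_of_colour (hc : p.2 ≠ q.2) : Apart S V p q :=
  fun _ _ _ _ e => hc (Prod.ext_iff.mp e).2

namespace IsCyc

lemma rotate (hg : IsCyc S V p q r g) : IsCyc S V q r p g :=
  ⟨hg.map_q, hg.map_r, hg.map_p, fun z hz => hg.fix z fun y hy =>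
    ⟨(hz y hy).2.2, (hz y hy).1, (hz y hy).2.1⟩⟩

lemma inv (hg : IsCyc S V p q r g) : IsCyc S V r q p g⁻¹ := by
  refine ⟨fun y hy => ?_, fun y hy => ?_, fun y hy => ?_, fun z hz => ?_⟩
  · exact g.injective ((g.apply_symm_apply _).trans (hg.map_q y hy).symm)
  · exact g.injective ((g.apply_symm_apply _).trans (hg.map_p y hy).symm)
  · exact g.injective ((g.apply_symm_apply _).trans (hg.map_r y hy).symm)
  · exact g.injective ((g.apply_symm_apply _).trans
      (hg.fix z fun y hy => ⟨(hz y hy).2.2, (hz y hy).2.1, (hz y hy).1⟩).symm)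

/-- A slot apart from the three is fixed. -/
lemma fix_apart (hg : IsCyc S V p q r g) {U : Set X} (hU : U ⊆ V) {w : Off n}
    (h1 : Apart S V w p) (h2 : Apart S V w q) (h3 : Apart S V w r) :
    ∀ y ∈ U, g (pt S w y) = pt S w y := fun y hy => hg.fix _ fun y' hy' =>
  ⟨h1 y (hU hy) y' hy', h2 y (hU hy) y' hy', h3 y (hU hy) y' hy'⟩

/-- A slot with another colour is fixed. -/
lemma fix_colour (hg : IsCyc S V p q r g) {w : Off n} (h1 : w.2 ≠ p.2) (h2 : w.2 ≠ q.2)
    (h3 : w.2 ≠ r.2) (y : X) : g (pt S w y) = pt S w y := hg.fix _ fun _ _ =>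
  ⟨fun e => h1 (Prod.ext_iff.mp e).2, fun e => h2 (Prod.ext_iff.mp e).2,
    fun e => h3 (Prod.ext_iff.mp e).2⟩

/-- Three-cycles of the same slots coincide. -/
lemma unique (hg : IsCyc S V p q r g) (hh : IsCyc S V p q r h) : g = h := by
  refine Equiv.ext fun z => ?_
  by_cases hz : ∀ y ∈ V, z ≠ pt S p y ∧ z ≠ pt S q y ∧ z ≠ pt S r y
  · rw [hg.fix z hz, hh.fix z hz]
  · push Not at hz
    obtain ⟨y, hy, hz⟩ := hz
    by_cases h1 : z = pt S p y
    · rw [h1, hg.map_p y hy, hh.map_p y hy]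
    by_cases h2 : z = pt S q y
    · rw [h2, hg.map_q y hy, hh.map_q y hy]
    · rw [hz h1 h2, hg.map_r y hy, hh.map_r y hy]

/-- Transport by a permutation carrying the three slots to slots. -/
lemma conj (hg : IsCyc S V p q r g) {p' q' r' : Off n}
    (hp : ∀ y ∈ V, h (pt S p y) = pt S p' y) (hq : ∀ y ∈ V, h (pt S q y) = pt S q' y)
    (hr : ∀ y ∈ V, h (pt S r y) = pt S r' y) : IsCyc S V p' q' r' (h * g * h⁻¹) := by
  refine ⟨fun y hy => ?_, fun y hy => ?_, fun y hy => ?_, fun z hz => ?_⟩ <;>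
    simp only [Equiv.Perm.mul_apply]
  · rw [← hp y hy, Equiv.Perm.inv_def, h.symm_apply_apply, hg.map_p y hy, hq y hy]
  · rw [← hq y hy, Equiv.Perm.inv_def, h.symm_apply_apply, hg.map_q y hy, hr y hy]
  · rw [← hr y hy, Equiv.Perm.inv_def, h.symm_apply_apply, hg.map_r y hy, hp y hy]
  · rw [hg.fix (h⁻¹ z) fun y hy => ?_]
    · exact h.apply_symm_apply z
    · have e : h (h⁻¹ z) = z := h.apply_symm_apply z
      exact ⟨fun e' => (hz y hy).1 (by rw [← e, e', hp y hy]),
        fun e' => (hz y hy).2.1 (by rw [← e, e', hq y hy]),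
        fun e' => (hz y hy).2.2 (by rw [← e, e', hr y hy])⟩

/-- The product of two cycles with two slots in common. -/
lemma mul_inv {x y z w : Off n} {A B : Equiv.Perm (Pt X n)} (hA : IsCyc S V x y z A)
    (hB : IsCyc S V w y z B) (hxw : Apart S V x w) (hxy : Apart S V x y) (hxz : Apart S V x z)
    (hyw : Apart S V y w) (hzw : Apart S V z w) : IsCyc S V x y w (A * B⁻¹) := by
  have hBi := hB.inv
  refine ⟨fun v hv => ?_, fun v hv => ?_, fun v hv => ?_, fun u hu => ?_⟩ <;>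
    simp only [Equiv.Perm.mul_apply]
  · rw [hBi.fix_apart le_rfl hxz hxy hxw v hv, hA.map_p v hv]
  · rw [hBi.map_q v hv, hA.fix_apart le_rfl hxw.symm hyw.symm hzw.symm v hv]
  · rw [hBi.map_r v hv, hA.map_r v hv]
  · by_cases hz : ∀ v ∈ V, u ≠ pt S z v
    · rw [hBi.fix u fun v hv => ⟨hz v hv, (hu v hv).2.1, (hu v hv).2.2⟩]
      exact hA.fix u fun v hv => ⟨(hu v hv).1, (hu v hv).2.1, hz v hv⟩
    · push Not at hz
      obtain ⟨v, hv, rfl⟩ := hz
      rw [hBi.map_p v hv, hA.map_q v hv]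

/-- Disjoint pieces add. -/
lemma mul_union {U W : Set X} (hg : IsCyc S U p q r g) (hh : IsCyc S W p q r h)
    (hd : Disjoint U W) (hpq : p.2 ≠ q.2) (hqr : q.2 ≠ r.2) (hpr : p.2 ≠ r.2) :
    IsCyc S (U ∪ W) p q r (g * h) := by
  have fixg : ∀ w : Off n, w = p ∨ w = q ∨ w = r → ∀ y ∈ W,
      g (pt S w y) = pt S w y := by
    intro w hw y hy
    refine hg.fix _ fun y' hy' => ?_
    have hne : ∀ t : Off n, (w.2 ≠ t.2 ∨ w = t) → pt S w y ≠ pt S t y' := by
      rintro t (ht | rfl) e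
      · exact ht (Prod.ext_iff.mp e).2
      · exact Set.disjoint_left.mp hd hy'
          ((S.sh w.1).injective (congrArg Prod.fst e).symm ▸ hy)
    rcases hw with rfl | rfl | rfl
    · exact ⟨hne _ (.inr rfl), hne _ (.inl hpq), hne _ (.inl hpr)⟩
    · exact ⟨hne _ (.inl hpq.symm), hne _ (.inr rfl), hne _ (.inl hqr)⟩
    · exact ⟨hne _ (.inl hpr.symm), hne _ (.inl hqr.symm), hne _ (.inr rfl)⟩
  have fixh : ∀ w : Off n, w = p ∨ w = q ∨ w = r → ∀ y ∈ U,
      h (pt S w y) = pt S w y := by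
    intro w hw y hy
    refine hh.fix _ fun y' hy' => ?_
    have hne : ∀ t : Off n, (w.2 ≠ t.2 ∨ w = t) → pt S w y ≠ pt S t y' := by
      rintro t (ht | rfl) e
      · exact ht (Prod.ext_iff.mp e).2
      · exact Set.disjoint_left.mp hd hy ((S.sh w.1).injective (congrArg Prod.fst e) ▸ hy')
    rcases hw with rfl | rfl | rfl
    · exact ⟨hne _ (.inr rfl), hne _ (.inl hpq), hne _ (.inl hpr)⟩
    · exact ⟨hne _ (.inl hpq.symm), hne _ (.inr rfl), hne _ (.inl hqr)⟩
    · exact ⟨hne _ (.inl hpr.symm), hne _ (.inl hqr.symm), hne _ (.inr rfl)⟩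
  refine ⟨fun y hy => ?_, fun y hy => ?_, fun y hy => ?_, fun u hu => ?_⟩ <;>
    simp only [Equiv.Perm.mul_apply]
  · rcases hy with hy | hy
    · rw [fixh p (.inl rfl) y hy, hg.map_p y hy]
    · rw [hh.map_p y hy, fixg q (.inr (.inl rfl)) y hy]
  · rcases hy with hy | hy
    · rw [fixh q (.inr (.inl rfl)) y hy, hg.map_q y hy]
    · rw [hh.map_q y hy, fixg r (.inr (.inr rfl)) y hy]
  · rcases hy with hy | hy
    · rw [fixh r (.inr (.inr rfl)) y hy, hg.map_r y hy]
    · rw [hh.map_r y hy, fixg p (.inl rfl) y hy]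
  · rw [hh.fix u fun y hy => hu y (.inr hy), hg.fix u fun y hy => hu y (.inl hy)]

end IsCyc

lemma perm_isCyc (g : Gen X n) : IsCyc S (g.U : Set X) g.p g.q g.r (g.perm S) := by
  obtain ⟨U, p, q, r, h1, h2, h3⟩ := g
  have e : ∀ a b : Lat, a - b + b = a := sub_add_cancel
  refine ⟨fun y hy => ?_, fun y hy => ?_, fun y hy => ?_, fun z hz => ?_⟩ <;>
    show S.cycFun _ _ _ _ _ = _ <;> unfold Sys.cycFun
  · have hm : (pt S p y).2 = p.2 ∧ S.sh (-p.1) (pt S p y).1 ∈ (U : Set X) :=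
      ⟨rfl, by simpa [pt, S.sh_neg_cancel] using hy⟩
    rw [if_pos hm]
    simp only [pt, S.sh_sh, e]
  · have hm : (pt S q y).2 = q.2 ∧ S.sh (-q.1) (pt S q y).1 ∈ (U : Set X) :=
      ⟨rfl, by simpa [pt, S.sh_neg_cancel] using hy⟩
    rw [if_neg fun h => h1 h.1.symm, if_pos hm]
    simp only [pt, S.sh_sh, e]
  · have hm : (pt S r y).2 = r.2 ∧ S.sh (-r.1) (pt S r y).1 ∈ (U : Set X) :=
      ⟨rfl, by simpa [pt, S.sh_neg_cancel] using hy⟩
    rw [if_neg fun h => h3 h.1.symm, if_neg fun h => h2 h.1.symm, if_pos hm]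
    simp only [pt, S.sh_sh, e]
  · have key : ∀ w : Off n, z.2 = w.2 → z = pt S w (S.sh (-w.1) z.1) := fun w hw => by
      rw [pt, S.sh_sh, add_neg_cancel, S.sh_zero, ← hw]
    rw [if_neg fun h => (hz _ h.2).1 (key p h.1), if_neg fun h => (hz _ h.2).2.1 (key q h.1),
      if_neg fun h => (hz _ h.2).2.2 (key r h.1)]

/-- Moving the origin of the slots. -/
lemma IsCyc.translate (hg : IsCyc S V p q r g) (v : Lat) :
    IsCyc S (S.translate v V) (p.1 - v, p.2) (q.1 - v, q.2) (r.1 - v, r.2) g := by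
  have e : ∀ (w : Off n) (y : X),
      pt S (w.1 - v, w.2) y = pt S w (S.sh (-v) y) := fun w y => by
    simp only [pt, S.sh_sh, sub_eq_add_neg]
  refine ⟨fun y hy => ?_, fun y hy => ?_, fun y hy => ?_, fun z hz => hg.fix z fun y hy => ?_⟩
  · rw [e, e]; exact hg.map_p _ hy
  · rw [e, e]; exact hg.map_q _ hy
  · rw [e, e]; exact hg.map_r _ hy
  · have hy' : S.sh v y ∈ S.translate v V := by
      show S.sh (-v) (S.sh v y) ∈ V
      rwa [S.sh_neg_cancel]
    have := hz _ hy'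
    simpa only [e, S.sh_neg_cancel] using this

end Vale.Agent.P196.Full.Simple
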