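import Vale.Agent.P196.Full.Goals
import Vale.Agent.P196.Full.Simple.Cyc
import Vale.Agent.P196.SimpleCriterion

/-!
# P196: the alternating group is simple and infinite
-/

open scoped commutatorElement

namespace Vale.Agent.P196.Full.Simple

open Set

variable {X : Type} [TopologicalSpace X] {n : ℕ} (S : Sys X)

lemma eq_zero_of_fixed (T : Tower S) {v : Lat} {x : X} (h : S.sh v x = x) : v = 0 := by
  obtain ⟨m, hm⟩ := T.W_unbounded (v.1.natAbs + v.2.natAbs + 1)
  have e := T.phase_sh m v x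
  rw [h] at e
  have e1 : (v.1 : ZMod (T.W m)) = 0 := by simpa using (Prod.ext_iff.mp e).1
  have e2 : (v.2 : ZMod (T.W m)) = 0 := by simpa using (Prod.ext_iff.mp e).2
  rw [ZMod.intCast_zmod_eq_zero_iff_dvd] at e1 e2
  refine Prod.ext ?_ ?_
  · exact Int.eq_zero_of_dvd_of_natAbs_lt_natAbs e1 (by simp only [Int.natAbs_natCast]; omega)
  · exact Int.eq_zero_of_dvd_of_natAbs_lt_natAbs e2 (by simp only [Int.natAbs_natCast]; omega)

lemma continuous_cycFun {U : Set X} (hU : IsClopen U) (p q r : Off n) :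
    Continuous (S.cycFun U p q r) := by
  have hA : ∀ w : Off n, IsClopen {z : Pt X n | z.2 = w.2 ∧ S.sh (-w.1) z.1 ∈ U} := fun w =>
    IsClopen.inter ((isClopen_discrete ({w.2} : Set (Fin n))).preimage continuous_snd)
      (hU.preimage ((S.sh (-w.1)).continuous.comp continuous_fst))
  have hmove : ∀ (v : Lat) (c : Fin n), Continuous fun z : Pt X n => (S.sh v z.1, c) :=
    fun v c => ((S.sh v).continuous.comp continuous_fst).prodMk continuous_const
  classical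
  unfold Sys.cycFun
  refine Continuous.if (fun z hz => ?_) (hmove _ _)
    (Continuous.if (fun z hz => ?_) (hmove _ _)
      (Continuous.if (fun z hz => ?_) (hmove _ _) continuous_id))
  · rw [(hA p).frontier_eq] at hz; exact hz.elim
  · rw [(hA q).frontier_eq] at hz; exact hz.elim
  · rw [(hA r).frontier_eq] at hz; exact hz.elim

lemma continuous_of_mem {g : Equiv.Perm (Pt X n)} (hg : g ∈ S.altGroup n) : Continuous g := by
  refine (Subgroup.closure_induction (p := fun (g : Equiv.Perm (Pt X n)) _ => Continuous ⇑g ∧ Continuous ⇑g⁻¹)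
    ?_ ?_ ?_ ?_ (Sys.altGroup_eq S ▸ hg)).1
  · rintro _ ⟨a, rfl⟩
    exact ⟨continuous_cycFun S a.U.isClopen _ _ _, continuous_cycFun S a.U.isClopen _ _ _⟩
  · exact ⟨continuous_id (X := Pt X n), continuous_id (X := Pt X n)⟩
  · intro a b _ _ ha hb
    rw [mul_inv_rev]
    exact ⟨ha.1.comp hb.1, hb.2.comp ha.2⟩
  · intro a _ ha
    rw [inv_inv]
    exact ⟨ha.2, ha.1⟩

/-- A new colour. -/
lemma exists_colour (hn : 8 ≤ n) (l : List (Fin n)) (hl : l.length < 8) : ∃ c, c ∉ l := by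
  by_contra h
  push Not at h
  have : (Finset.univ : Finset (Fin n)) ⊆ l.toFinset := fun c _ => List.mem_toFinset.mpr (h c)
  have := (Finset.card_le_card this).trans l.toFinset_card_le
  rw [Finset.card_univ, Fintype.card_fin] at this
  omega

section Top

variable [CompactSpace X] [T2Space X] [TotallyDisconnectedSpace X]

lemma exists_clopen {O : Set X} (hO : IsOpen O) {x : X} (hx : x ∈ O) :
    ∃ V : Set X, IsClopen V ∧ x ∈ V ∧ V ⊆ O :=
  loc_compact_Haus_tot_disc_of_zero_dim.exists_subset_of_mem_open hx hO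

lemma exists_moved {g : Equiv.Perm (Pt X n)} (hg : g ∈ S.altGroup n) (h1 : g ≠ 1) :
    ∃ (V : Set X) (a : Fin n), IsClopen V ∧ V.Nonempty ∧
      Disjoint (g '' {z | z.1 ∈ V ∧ z.2 = a}) {z | z.1 ∈ V ∧ z.2 = a} := by
  obtain ⟨⟨x, a⟩, hz⟩ : ∃ z, g z ≠ z := by
    by_contra h
    push Not at h
    exact h1 (Equiv.ext h)
  obtain ⟨O₁, O₂, hO₁, hO₂, h₁, h₂, hd⟩ := t2_separation hz
  have hc : Continuous fun y : X => ((y, a) : Pt X n) := continuous_id.prodMk continuous_const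
  obtain ⟨V, hV, hxV, hVO⟩ := exists_clopen
    ((hO₁.preimage ((continuous_of_mem S hg).comp hc)).inter (hO₂.preimage hc)) ⟨h₁, h₂⟩
  refine ⟨V, a, hV, ⟨x, hxV⟩, Set.disjoint_left.mpr ?_⟩
  rintro _ ⟨⟨y, b⟩, ⟨hy, rfl⟩, rfl⟩ ⟨h, hb⟩
  have e : g (y, b) = ((g (y, b)).1, b) := Prod.ext rfl hb
  exact Set.disjoint_left.mp hd (hVO hy).1 (by rw [Function.comp_apply, e]; exact (hVO h).2)

/-- Five apart slots of one colour inside a clopen set. -/
lemma exists_five (hmin : S.IsMinimal) (T : Tower S) {V : Set X} (hV : IsClopen V)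
    (hne : V.Nonempty) :
    ∃ (W : Set X) (v : Fin 5 → Lat), IsClopen W ∧ W.Nonempty ∧
      (∀ i, ∀ y ∈ W, S.sh (v i) y ∈ V) ∧
      ∀ i j, i ≠ j → ∀ a : Fin n, Apart S W (v i, a) (v j, a) := by
  obtain ⟨x, hx⟩ := hne
  obtain ⟨F, hF⟩ := isCompact_univ.elim_finite_subcover (fun u : Lat => S.sh u ⁻¹' V)
    (fun u => hV.isOpen.preimage (S.sh u).continuous)
    (fun y _ => mem_iUnion.mpr (hmin V hV.isOpen ⟨x, hx⟩ y))
  have hinf : {u : Lat | S.sh u x ∈ V}.Infinite := by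
    intro hfin
    refine (Set.infinite_univ (α := Lat))
      ((Set.Finite.biUnion F.finite_toSet fun w _ => hfin.image fun u => u - w).subset fun u _ => ?_)
    obtain ⟨w, hw, hwV⟩ := mem_iUnion₂.mp (hF (mem_univ (S.sh u x)))
    exact mem_iUnion₂.mpr ⟨w, hw, w + u,
      by simpa only [mem_preimage, S.sh_sh, mem_ofPred_eq] using hwV, add_sub_cancel_left w u⟩
  set v : Fin 5 → Lat := fun i => hinf.natEmbedding _ i.val
  have hv : Function.Injective v := fun i j e =>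
    Fin.val_injective ((hinf.natEmbedding _).injective (Subtype.ext e))
  have hvV : ∀ i, S.sh (v i) x ∈ V := fun i => (hinf.natEmbedding _ i.val).2
  have hsep : ∀ i j : Fin 5, ∃ O : Set X, IsOpen O ∧ x ∈ O ∧
      (i ≠ j → ∀ y ∈ O, ∀ y' ∈ O, S.sh (v i) y ≠ S.sh (v j) y') := by
    intro i j
    by_cases hij : i = j
    · exact ⟨univ, isOpen_univ, trivial, fun h => (h hij).elim⟩
    have hne : S.sh (v i) x ≠ S.sh (v j) x := fun e => by
      refine hij (hv (sub_eq_zero.mp (eq_zero_of_fixed S T (x := x) ?_)))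
      rw [sub_eq_neg_add, S.sh_add, e, S.sh_neg_cancel]
    obtain ⟨O₁, O₂, hO₁, hO₂, h₁, h₂, hd⟩ := t2_separation hne
    exact ⟨_, (hO₁.preimage (S.sh (v i)).continuous).inter (hO₂.preimage (S.sh (v j)).continuous),
      ⟨h₁, h₂⟩, fun _ y hy y' hy' e => Set.disjoint_left.mp hd hy.1 (e ▸ hy'.2)⟩
  choose O hO hxO hOd using hsep
  obtain ⟨W, hW, hxW, hWO⟩ := exists_clopen
    ((isOpen_iInter_of_finite fun i => hV.isOpen.preimage (S.sh (v i)).continuous).inter
      (isOpen_iInter_of_finite fun i => isOpen_iInter_of_finite (hO i)))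
    (show x ∈ _ from ⟨mem_iInter.mpr hvV, mem_iInter.mpr fun i => mem_iInter.mpr (hxO i)⟩)
  refine ⟨W, v, hW, ⟨x, hxW⟩, fun i y hy => mem_iInter.mp (hWO hy).1 i,
    fun i j hij a y hy y' hy' e => hOd i j hij y ?_ y' ?_ (Prod.ext_iff.mp e).1⟩
  · exact mem_iInter.mp (mem_iInter.mp (hWO hy).2 i) j
  · exact mem_iInter.mp (mem_iInter.mp (hWO hy').2 i) j

end Top

/-- A generator on a clopen set. -/
noncomputable def cg {V : Set X} (hV : IsClopen V) (p q r : Off n) (h : Sys.Tri p q r) :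
    Equiv.Perm (Pt X n) :=
  Gen.perm S ⟨⟨V, hV⟩, p, q, r, h⟩

lemma cg_isCyc {V : Set X} (hV : IsClopen V) (p q r : Off n) (h : Sys.Tri p q r) :
    IsCyc S V p q r (cg S hV p q r h) := perm_isCyc (S := S) ⟨⟨V, hV⟩, p, q, r, h⟩

lemma cg_mem {V : Set X} (hV : IsClopen V) (p q r : Off n) (h : Sys.Tri p q r) :
    cg S hV p q r h ∈ S.altGroup n := Gen.perm_mem S _

/-- Three apart slots of one colour carry a cycle of the group. -/
lemma exists_cyc_one_colour (hn : 8 ≤ n) {V : Set X} (hV : IsClopen V) (u v w : Lat) (a : Fin n)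
    (huv : Apart S V (u, a) (v, a)) (huw : Apart S V (u, a) (w, a))
    (hvw : Apart S V (v, a) (w, a)) :
    ∃ g ∈ S.altGroup n, IsCyc S V (u, a) (v, a) (w, a) g := by
  obtain ⟨b, hb⟩ := exists_colour hn [a] (by simp)
  obtain ⟨c, hc⟩ := exists_colour hn [a, b] (by simp)
  obtain ⟨d, hd⟩ := exists_colour hn [a, b, c] (by simp)
  simp only [List.mem_cons, List.not_mem_nil, or_false, not_or] at hb hc hd
  obtain ⟨⟨hca, hcb⟩, hda, hdb, hdc⟩ := And.intro hc hd
  have t₀ : Sys.Tri (u, a) ((0, b) : Off n) (0, c) := ⟨Ne.symm hb, Ne.symm hcb, Ne.symm hca⟩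
  have t₁ : Sys.Tri ((0, b) : Off n) (v, a) (0, d) := ⟨hb, Ne.symm hda, Ne.symm hdb⟩
  have t₂ : Sys.Tri ((0, c) : Off n) (w, a) (0, d) := ⟨hca, Ne.symm hda, Ne.symm hdc⟩
  have h₁ := cg_isCyc S hV _ _ _ t₁
  have g₁ := (cg_isCyc S hV _ _ _ t₀).conj
    (h₁.fix_apart le_rfl (apart_of_colour (Ne.symm hb)) huv (apart_of_colour (Ne.symm hda)))
    h₁.map_p fun y _ => h₁.fix_colour hcb hca (Ne.symm hdc) y
  have h₂ := cg_isCyc S hV _ _ _ t₂
  have g₂ := g₁.conj
    (h₂.fix_apart le_rfl (apart_of_colour (Ne.symm hca)) huw (apart_of_colour (Ne.symm hda)))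
    (h₂.fix_apart le_rfl (apart_of_colour (Ne.symm hca)) hvw (apart_of_colour (Ne.symm hda)))
    h₂.map_p
  exact ⟨_, mul_mem (mul_mem (cg_mem S hV _ _ _ t₂) (mul_mem (mul_mem (cg_mem S hV _ _ _ t₁)
    (cg_mem S hV _ _ _ t₀)) (inv_mem (cg_mem S hV _ _ _ t₁)))) (inv_mem (cg_mem S hV _ _ _ t₂)), g₂⟩

/-- Some three-cycle with these slots lies in `N`. -/
def Mem (N : Subgroup (Equiv.Perm (Pt X n))) (V : Set X) (p q r : Off n) : Prop :=
  Sys.Tri p q r ∧ ∃ g ∈ N, IsCyc S V p q r g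

/-- All three-cycles of `V` lie in `N`. -/
def All (N : Subgroup (Equiv.Perm (Pt X n))) (V : Set X) : Prop :=
  ∀ p q r : Off n, Sys.Tri p q r → Mem S N V p q r

variable {S} {N : Subgroup (Equiv.Perm (Pt X n))}

lemma Mem.rotate {V : Set X} {p q r : Off n} (h : Mem S N V p q r) : Mem S N V q r p :=
  ⟨⟨h.1.2.1, h.1.2.2.symm, h.1.1.symm⟩, h.2.imp fun _ hg => ⟨hg.1, hg.2.rotate⟩⟩

/-- One slot moves to a new colour. -/
lemma Mem.move (hn : 8 ≤ n) (hN : ∀ h ∈ S.altGroup n, ∀ g ∈ N, h * g * h⁻¹ ∈ N)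
    {V : Set X} (hV : IsClopen V) {p q r : Off n} (h : Mem S N V p q r) (s : Off n)
    (hp : s.2 ≠ p.2) (hq : s.2 ≠ q.2) (hr : s.2 ≠ r.2) : Mem S N V s q r := by
  obtain ⟨⟨hpq, hqr, hpr⟩, g, hgN, hg⟩ := h
  obtain ⟨d, hd⟩ := exists_colour hn [p.2, q.2, r.2, s.2] (by simp)
  simp only [List.mem_cons, List.not_mem_nil, or_false, not_or] at hd
  obtain ⟨hdp, hdq, hdr, hds⟩ := hd
  have t : Sys.Tri p s ((0, d) : Off n) := ⟨hp.symm, Ne.symm hds, Ne.symm hdp⟩
  have hh := cg_isCyc S hV _ _ _ t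
  exact ⟨⟨hq, hqr, hr⟩, _, hN _ (cg_mem S hV _ _ _ t) g hgN,
    hg.conj hh.map_p (fun y _ => hh.fix_colour hpq.symm hq.symm (Ne.symm hdq) y)
      (fun y _ => hh.fix_colour hpr.symm hr.symm (Ne.symm hdr) y)⟩

/-- One triple gives all. -/
lemma Mem.all (hn : 8 ≤ n) (hN : ∀ h ∈ S.altGroup n, ∀ g ∈ N, h * g * h⁻¹ ∈ N)
    {V : Set X} (hV : IsClopen V) {p q r : Off n} (h : Mem S N V p q r) : All S N V := by
  intro p' q' r' ⟨hpq', hqr', hpr'⟩
  obtain ⟨hpq, hqr, hpr⟩ := h.1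
  obtain ⟨a, ha⟩ := exists_colour hn [p.2, q.2, r.2, p'.2, q'.2, r'.2] (by simp)
  simp only [List.mem_cons, List.not_mem_nil, or_false, not_or] at ha
  have h₁ := h.move hn hN hV (0, a) ha.1 ha.2.1 ha.2.2.1
  obtain ⟨b, hb⟩ := exists_colour hn [a, q.2, r.2, p'.2, q'.2, r'.2] (by simp)
  simp only [List.mem_cons, List.not_mem_nil, or_false, not_or] at hb
  have h₂ := (h₁.rotate).move hn hN hV (0, b) hb.2.1 hb.2.2.1 hb.1
  obtain ⟨c, hc⟩ := exists_colour hn [a, b, r.2, p'.2, q'.2, r'.2] (by simp)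
  simp only [List.mem_cons, List.not_mem_nil, or_false, not_or] at hc
  -- the slots are now the spare colours `c`, `a`, `b`
  have h₃ := (h₂.rotate).move hn hN hV (0, c) hc.2.2.1 hc.1 hc.2.1
  have h₄ := (h₃.rotate).move hn hN hV p' (Ne.symm ha.2.2.2.1) (Ne.symm hb.2.2.2.1)
    (Ne.symm hc.2.2.2.1)
  have h₅ := (h₄.rotate).move hn hN hV q' (Ne.symm hb.2.2.2.2.1) (Ne.symm hc.2.2.2.2.1)
    hpq'.symm
  exact ((h₅.rotate).move hn hN hV r' (Ne.symm hc.2.2.2.2.2) hpr'.symm hqr'.symm).rotate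

/-- All cycles of a set give all cycles of its clopen subsets. -/
lemma All.mono (hn : 8 ≤ n) (hN : ∀ h ∈ S.altGroup n, ∀ g ∈ N, h * g * h⁻¹ ∈ N)
    {V U : Set X} (hU : IsClopen U) (hUV : U ⊆ V) (h : All S N V) : All S N U := by
  let o : Fin 5 → Off n := fun i => (0, ⟨i.val, lt_of_lt_of_le i.isLt (by omega)⟩)
  have ne : ∀ i j : Fin 5, i ≠ j → (o i).2 ≠ (o j).2 :=
    fun i j hij e => hij (Fin.ext (show i.val = j.val from congrArg (fun c : Fin n => c.val) e))
  obtain ⟨hT, g, hgN, hg⟩ := h (o 0) (o 1) (o 2)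
    ⟨ne 0 1 (by decide), ne 1 2 (by decide), ne 0 2 (by decide)⟩
  have t : Sys.Tri (o 2) (o 3) (o 4) :=
    ⟨ne 2 3 (by decide), ne 3 4 (by decide), ne 2 4 (by decide)⟩
  have hB := cg_isCyc S hU _ _ _ t
  have hA := hB.conj (fun y hy => hg.map_r y (hUV hy))
    (fun y _ => hg.fix_colour (ne 3 0 (by decide)) (ne 3 1 (by decide)) (ne 3 2 (by decide)) y)
    (fun y _ => hg.fix_colour (ne 4 0 (by decide)) (ne 4 1 (by decide)) (ne 4 2 (by decide)) y)
  have hc := hA.mul_inv hB (apart_of_colour (ne 0 2 (by decide)))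
    (apart_of_colour (ne 0 3 (by decide))) (apart_of_colour (ne 0 4 (by decide)))
    (apart_of_colour (ne 3 2 (by decide))) (apart_of_colour (ne 4 2 (by decide)))
  refine Mem.all hn hN hU
    ⟨⟨ne 0 3 (by decide), ne 3 2 (by decide), ne 0 2 (by decide)⟩, _, ?_, hc⟩
  have := N.mul_mem hgN (hN _ (cg_mem S hU _ _ _ t) _ (N.inv_mem hgN))
  simpa only [mul_assoc] using this

lemma All.translate {V : Set X} (h : All S N V) (v : Lat) : All S N (S.translate v V) := by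
  intro p q r ht
  obtain ⟨-, g, hgN, hg⟩ := h (p.1 + v, p.2) (q.1 + v, q.2) (r.1 + v, r.2) ht
  refine ⟨ht, g, hgN, ?_⟩
  simpa using hg.translate v

lemma All.union {U W : Set X} (hU : All S N U) (hW : All S N W) (hd : Disjoint U W) :
    All S N (U ∪ W) := by
  intro p q r ht
  obtain ⟨-, g, hgN, hg⟩ := hU p q r ht
  obtain ⟨-, g', hgN', hg'⟩ := hW p q r ht
  exact ⟨ht, _, N.mul_mem hgN hgN', hg.mul_union hg' hd ht.1 ht.2.1 ht.2.2⟩

/-- A clopen set with all its cycles spreads to everything covered by its translates. -/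
lemma All.cover (hn : 8 ≤ n) (hN : ∀ h ∈ S.altGroup n, ∀ g ∈ N, h * g * h⁻¹ ∈ N)
    {V : Set X} (hV : IsClopen V) (h : All S N V) (F : Finset Lat) :
    ∀ U : Set X, IsClopen U → (∀ x ∈ U, ∃ u ∈ F, x ∈ S.translate u V) → All S N U := by
  induction F using Finset.induction_on with
  | empty =>
    intro U _ hcov p q r ht
    have hU : ∀ x, x ∉ U := fun x hx => by simpa using hcov x hx
    exact ⟨ht, 1, N.one_mem, ⟨fun y hy => (hU y hy).elim, fun y hy => (hU y hy).elim,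
      fun y hy => (hU y hy).elim, fun z _ => rfl⟩⟩
  | insert v F _ ih =>
    intro U hU hcov
    have hTv : IsClopen (S.translate v V) := hV.preimage (S.sh (-v)).continuous
    have h1 : All S N (S.translate v (S.translate (-v) (U ∩ S.translate v V))) := by
      refine All.translate (All.mono hn hN ((hU.inter hTv).preimage (S.sh (- -v)).continuous)
        (fun y hy => ?_) h) v
      have := hy.2
      simpa [Sys.translate, S.sh_neg_cancel] using this
    have e : S.translate v (S.translate (-v) (U ∩ S.translate v V)) = U ∩ S.translate v V := by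
      ext y
      simp [Sys.translate, S.sh_sh, S.sh_zero]
    rw [e] at h1
    have h2 := ih (U \ S.translate v V) (hU.diff hTv) fun x hx => by
      obtain ⟨u, hu, hxu⟩ := hcov x hx.1
      rcases Finset.mem_insert.mp hu with rfl | hu
      · exact (hx.2 hxu).elim
      · exact ⟨u, hu, hxu⟩
    simpa [Set.inter_union_sdiff] using h1.union h2
      (Set.disjoint_left.mpr fun x hx hx' => hx'.2 hx.2)

section Top

variable [CompactSpace X] [T2Space X] [TotallyDisconnectedSpace X]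

/-- The commutators supported in a small set generate normally. -/
lemma normalClosure_eq_top (hn : 8 ≤ n) (hmin : S.IsMinimal) (T : Tower S) {V : Set X}
    (hV : IsClopen V) (hne : V.Nonempty) (a : Fin n) :
    Subgroup.normalClosure {c : S.altGroup n | ∃ A B : S.altGroup n,
      SupportedIn (A : Equiv.Perm (Pt X n)) {z | z.1 ∈ V ∧ z.2 = a} ∧
      SupportedIn (B : Equiv.Perm (Pt X n)) {z | z.1 ∈ V ∧ z.2 = a} ∧ c = ⁅A, B⁆} = ⊤ := by
  set N₀ := Subgroup.normalClosure {c : S.altGroup n | ∃ A B : S.altGroup n,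
      SupportedIn (A : Equiv.Perm (Pt X n)) {z | z.1 ∈ V ∧ z.2 = a} ∧
      SupportedIn (B : Equiv.Perm (Pt X n)) {z | z.1 ∈ V ∧ z.2 = a} ∧ c = ⁅A, B⁆}
  set N := N₀.map (S.altGroup n).subtype with hNdef
  have hN : ∀ h ∈ S.altGroup n, ∀ g ∈ N, h * g * h⁻¹ ∈ N := by
    rintro h hh _ ⟨g, hg, rfl⟩
    exact ⟨⟨h, hh⟩ * g * ⟨h, hh⟩⁻¹, Subgroup.normalClosure_normal.conj_mem g hg _, rfl⟩
  suffices hall : All S N univ by
    have hle : S.altGroup n ≤ N := by
      refine le_of_eq_of_le (Sys.altGroup_eq S) ((Subgroup.closure_le _).mpr ?_)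
      rintro _ ⟨g, rfl⟩
      obtain ⟨F, hF⟩ : ∃ F : Finset Lat, ∀ x ∈ (g.U : Set X), ∃ u ∈ F, x ∈ S.translate u univ :=
        ⟨{0}, fun x _ => ⟨0, Finset.mem_singleton_self 0, trivial⟩⟩
      obtain ⟨-, g', hg', hc⟩ := All.cover hn hN isClopen_univ hall F g.U g.U.isClopen hF
        g.p g.q g.r g.tri
      rwa [(perm_isCyc g).unique hc]
    rw [eq_top_iff]
    rintro ⟨g, hg⟩ -
    obtain ⟨g', hg', e⟩ := hle hg
    rwa [show (⟨g, hg⟩ : S.altGroup n) = g' from Subtype.ext e.symm]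
  -- five slots in `V × {a}`
  obtain ⟨W, v, hW, hWne, hvV, hap⟩ := exists_five (n := n) S hmin T hV hne
  have ap : ∀ i j, i ≠ j → Apart S W (v i, a) (v j, a) := fun i j hij => hap i j hij a
  obtain ⟨A, hAG, hA⟩ := exists_cyc_one_colour S hn hW (v 0) (v 1) (v 2) a (ap _ _ (by decide))
    (ap _ _ (by decide)) (ap _ _ (by decide))
  obtain ⟨B, hBG, hB⟩ := exists_cyc_one_colour S hn hW (v 2) (v 3) (v 4) a (ap _ _ (by decide))
    (ap _ _ (by decide)) (ap _ _ (by decide))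
  have hsupp : ∀ {g : Equiv.Perm (Pt X n)} {i j k : Fin 5},
      IsCyc S W (v i, a) (v j, a) (v k, a) g → SupportedIn g {z | z.1 ∈ V ∧ z.2 = a} :=
    fun {g i j k} hg z hz => hg.fix z fun y hy =>
      ⟨fun e => hz (e ▸ ⟨hvV i y hy, rfl⟩), fun e => hz (e ▸ ⟨hvV j y hy, rfl⟩),
        fun e => hz (e ▸ ⟨hvV k y hy, rfl⟩)⟩
  have hcN : A * B * A⁻¹ * B⁻¹ ∈ N := ⟨⁅(⟨A, hAG⟩ : S.altGroup n), ⟨B, hBG⟩⁆,
    Subgroup.subset_normalClosure ⟨_, _, hsupp hA, hsupp hB, rfl⟩, rfl⟩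
  have hAB := hB.conj hA.map_r
    (hA.fix_apart le_rfl (ap _ _ (by decide)) (ap _ _ (by decide)) (ap _ _ (by decide)))
    (hA.fix_apart le_rfl (ap _ _ (by decide)) (ap _ _ (by decide)) (ap _ _ (by decide)))
  have hC := hAB.mul_inv hB (ap _ _ (by decide)) (ap _ _ (by decide)) (ap _ _ (by decide))
    (ap _ _ (by decide)) (ap _ _ (by decide))
  -- three colours
  obtain ⟨b, hb⟩ := exists_colour hn [a] (by simp)
  obtain ⟨c, hc⟩ := exists_colour hn [a, b] (by simp)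
  obtain ⟨d, hd⟩ := exists_colour hn [a, b, c] (by simp)
  simp only [List.mem_cons, List.not_mem_nil, or_false, not_or] at hb hc hd
  obtain ⟨⟨hca, hcb⟩, hda, hdb, hdc⟩ := And.intro hc hd
  have t₁ : Sys.Tri (v 0, a) ((0, b) : Off n) (0, d) :=
    ⟨Ne.symm hb, Ne.symm hdb, Ne.symm hda⟩
  have t₂ : Sys.Tri (v 3, a) ((0, c) : Off n) (0, d) :=
    ⟨Ne.symm hca, Ne.symm hdc, Ne.symm hda⟩
  have h₁ := cg_isCyc S hW _ _ _ t₁
  have g₁ := hC.conj h₁.map_p
    (h₁.fix_apart le_rfl (ap _ _ (by decide)) (apart_of_colour (Ne.symm hb))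
      (apart_of_colour (Ne.symm hda)))
    (h₁.fix_apart le_rfl (ap _ _ (by decide)) (apart_of_colour (Ne.symm hb))
      (apart_of_colour (Ne.symm hda)))
  have h₂ := cg_isCyc S hW _ _ _ t₂
  have g₂ := g₁.conj (fun y _ => h₂.fix_colour hb (Ne.symm hcb) (Ne.symm hdb) y) h₂.map_p
    (h₂.fix_apart le_rfl (ap _ _ (by decide)) (apart_of_colour (Ne.symm hca))
      (apart_of_colour (Ne.symm hda)))
  have hWall : All S N W := Mem.all hn hN hW ⟨⟨Ne.symm hcb, hca, hb⟩, _,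
    hN _ (cg_mem S hW _ _ _ t₂) _ (hN _ (cg_mem S hW _ _ _ t₁) _ hcN), g₂⟩
  obtain ⟨F, hF⟩ := isCompact_univ.elim_finite_subcover (fun u : Lat => S.translate u W)
    (fun u => hW.isOpen.preimage (S.sh (-u)).continuous) fun y _ => by
      obtain ⟨u, hu⟩ := hmin W hW.isOpen hWne y
      exact mem_iUnion.mpr ⟨-u, by simpa [Sys.translate] using hu⟩
  exact hWall.cover hn hN hW F univ isClopen_univ fun x hx => by simpa using hF hx

end Top

/-- The alternating group is simple and infinite. -/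
theorem simpleGoal : SimpleGoal := by
  intro X _ _ _ _ _ S n hn hmin ⟨T⟩
  obtain ⟨x⟩ := ‹Nonempty X›
  let c : ∀ i : ℕ, i < 3 → Fin n := fun i hi => ⟨i, by omega⟩
  have t : ∀ v : Lat, Sys.Tri ((0, c 0 (by omega)) : Off n) (v, c 1 (by omega)) (0, c 2 (by omega)) :=
    fun v => ⟨by simp [c], by simp [c], by simp [c]⟩
  let φ : Lat → S.altGroup n := fun v => ⟨_, cg_mem S isClopen_univ _ _ _ (t v)⟩
  have hφ : Function.Injective φ := fun v w e => by
    have e' := congrArg (fun g : S.altGroup n => (g : Equiv.Perm (Pt X n)) (pt S (0, c 0 (by omega)) x)) e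
    simp only [φ, (cg_isCyc S isClopen_univ _ _ _ (t v)).map_p x trivial,
      (cg_isCyc S isClopen_univ _ _ _ (t w)).map_p x trivial] at e'
    refine sub_eq_zero.mp (eq_zero_of_fixed S T (x := x) ?_)
    have e1 : S.sh v x = S.sh w x := (Prod.ext_iff.mp e').1
    rw [sub_eq_neg_add, S.sh_add, e1, S.sh_neg_cancel]
  have hinf : Infinite (S.altGroup n) := Infinite.of_injective φ hφ
  refine ⟨?_, hinf⟩
  refine isSimpleGroup_of_local (S.altGroup n)
    {U | ∃ (V : Set X) (a : Fin n), IsClopen V ∧ V.Nonempty ∧ U = {z | z.1 ∈ V ∧ z.2 = a}}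
    (fun g hg => ?_) ?_
  · obtain ⟨V, a, hV, hne, hd⟩ := exists_moved S g.2 fun h => hg (Subtype.ext h)
    exact ⟨_, ⟨V, a, hV, hne, rfl⟩, hd⟩
  · rintro _ ⟨V, a, hV, hne, rfl⟩
    exact normalClosure_eq_top hn hmin T hV hne a

end Vale.Agent.P196.Full.Simple
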